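import Mathlib

/-!
# Spencer-type discrepancy bounds

* `partial_colouring`, `full_colouring`: signs with discrepancy `O((n m)^(1/4))` for `n` variables
  and at most `m` constraints with coefficients bounded by one.
* `round_unit`: rounding a vector `y ∈ [0,1]^n` to `{0,1}^n` with error `O(((∑ y) m)^(1/4))`.
-/

set_option autoImplicit false

namespace Crest.Agent.Disc

open Finset Real

/-- the sign attached to a Boolean -/
noncomputable def sg (b : Bool) : ℝ := if b then 1 else -1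

lemma abs_sg (b : Bool) : |sg b| = 1 := by cases b <;> simp [sg]

lemma exp_moment {ι : Type*} [Fintype ι] [DecidableEq ι] (a : ι → ℝ) (ha : ∀ k, |a k| ≤ 1)
    (l : ℝ) :
    ∑ σ : ι → Bool, exp (l * ∑ k, a k * sg (σ k)) ≤
      2 ^ Fintype.card ι * exp (l ^ 2 * Fintype.card ι / 2) := by
  have h1 : ∀ σ : ι → Bool, exp (l * ∑ k, a k * sg (σ k)) = ∏ k, exp (l * (a k * sg (σ k))) := by
    intro σ; rw [Finset.mul_sum, Real.exp_sum]
  simp_rw [h1]
  have h2 := Finset.prod_univ_sum (fun _ : ι => (Finset.univ : Finset Bool))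
    (fun k b => exp (l * (a k * sg b)))
  rw [Fintype.piFinset_univ] at h2
  rw [← h2]
  have h3 : ∀ k, ∑ b : Bool, exp (l * (a k * sg b)) ≤ 2 * exp (l ^ 2 / 2) := by
    intro k
    have h4 : ∑ b : Bool, exp (l * (a k * sg b)) = 2 * cosh (l * a k) := by
      simp [sg, Real.cosh_eq]; ring
    rw [h4]
    have h5 := Real.cosh_le_exp_half_sq (l * a k)
    have h6 : (l * a k) ^ 2 / 2 ≤ l ^ 2 / 2 := by
      have : (a k) ^ 2 ≤ 1 := by
        have := ha k
        rw [← sq_abs]; nlinarith [abs_nonneg (a k)]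
      rw [mul_pow]; nlinarith [sq_nonneg l]
    have := Real.exp_le_exp.mpr h6
    linarith
  calc ∏ k, ∑ b : Bool, exp (l * (a k * sg b)) ≤ ∏ _k : ι, (2 * exp (l ^ 2 / 2)) := by
        apply Finset.prod_le_prod
        · intro k _; exact Finset.sum_nonneg fun b _ => (exp_pos _).le
        · intro k _; exact h3 k
    _ = 2 ^ Fintype.card ι * exp (l ^ 2 * Fintype.card ι / 2) := by
        rw [Finset.prod_const, Finset.card_univ, mul_pow, ← Real.exp_nat_mul]
        congr 2; ring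

lemma eighth_moment {ι : Type*} [Fintype ι] [DecidableEq ι] (a : ι → ℝ) (ha : ∀ k, |a k| ≤ 1)
    (hn : 0 < Fintype.card ι) :
    ∑ σ : ι → Bool, (∑ k, a k * sg (σ k)) ^ 8 ≤
      2 ^ Fintype.card ι * (161280 * (Fintype.card ι : ℝ) ^ 4) := by
  set n : ℝ := (Fintype.card ι : ℝ) with hn'
  have hn0 : 0 < n := by rw [hn']; exact_mod_cast hn
  set l : ℝ := 1 / √n with hl
  have hl2 : l ^ 2 * n = 1 := by
    rw [hl, div_pow, Real.sq_sqrt hn0.le]; field_simp
  have hl8 : l ^ 8 * n ^ 4 = 1 := by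
    have : l ^ 8 * n ^ 4 = (l ^ 2 * n) ^ 4 := by ring
    rw [this, hl2]; norm_num
  have key : ∀ X : ℝ, X ^ 8 ≤ 40320 * n ^ 4 * (exp (l * X) + exp (-l * X)) := by
    intro X
    have h1 := Real.pow_div_factorial_le_exp |l * X| (abs_nonneg _) 8
    have h2 : exp |l * X| ≤ exp (l * X) + exp (-l * X) := by
      rcases abs_cases (l * X) with h | h
      · rw [h.1]; have := exp_pos (-l * X); linarith
      · rw [h.1]; have := exp_pos (l * X); rw [neg_mul]; linarith
    have h3 : |l * X| ^ 8 = (l * X) ^ 8 := by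
      rw [show (8 : ℕ) = 2 * 4 from rfl, pow_mul, pow_mul, sq_abs]
    have h4 : (Nat.factorial 8 : ℝ) = 40320 := by norm_num [Nat.factorial]
    rw [h3, h4] at h1
    have h5 : X ^ 8 = n ^ 4 * (l * X) ^ 8 := by
      rw [mul_pow, ← mul_assoc, mul_comm (n ^ 4), hl8, one_mul]
    rw [h5]
    have h6 : (l * X) ^ 8 ≤ 40320 * (exp (l * X) + exp (-l * X)) := by linarith
    have h7 : 0 ≤ n ^ 4 := by positivity
    nlinarith
  have e1 := exp_moment a ha l
  have e2 := exp_moment a ha (-l)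
  have e3 : exp (l ^ 2 * n / 2) ≤ 2 := by
    rw [hl2]
    have := Real.exp_one_lt_d9
    have h1 : exp (1 / 2) * exp (1 / 2) = exp 1 := by rw [← exp_add]; norm_num
    nlinarith [exp_pos (1 / 2 : ℝ)]
  rw [neg_sq] at e2
  have h2n : (0 : ℝ) < 2 ^ Fintype.card ι := by positivity
  calc ∑ σ : ι → Bool, (∑ k, a k * sg (σ k)) ^ 8
      ≤ ∑ σ : ι → Bool, 40320 * n ^ 4 * (exp (l * ∑ k, a k * sg (σ k)) +
          exp (-l * ∑ k, a k * sg (σ k))) := Finset.sum_le_sum fun σ _ => key _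
    _ = 40320 * n ^ 4 * (∑ σ : ι → Bool, exp (l * ∑ k, a k * sg (σ k)) +
          ∑ σ : ι → Bool, exp (-l * ∑ k, a k * sg (σ k))) := by
        rw [← Finset.mul_sum, Finset.sum_add_distrib]
    _ ≤ 40320 * n ^ 4 * (2 ^ Fintype.card ι * 2 + 2 ^ Fintype.card ι * 2) := by
        gcongr
        · exact e1.trans (by gcongr)
        · exact e2.trans (by gcongr)
    _ = _ := by ring

lemma sum_weight_le (ρ : ℝ) (hρ : 0 < ρ) (T : Finset ℤ) :
    ∑ b ∈ T, exp (-(2 * ρ + |(b : ℝ)| / ρ)) ≤ 1 := by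
  set r : ℝ := exp (-(1 / ρ)) with hr
  have hr0 : 0 < r := exp_pos _
  have hr1 : r * (1 + 1 / ρ) ≤ 1 := by
    have h1 := Real.add_one_le_exp (1 / ρ)
    have h2 : r * exp (1 / ρ) = 1 := by rw [hr, ← exp_add]; simp
    nlinarith
  have hρ' : 0 < 1 / ρ := by positivity
  have hr2 : r < 1 := by nlinarith
  have hs : HasSum (fun b : ℤ => r ^ b.natAbs) ((1 - r)⁻¹ + r * (1 - r)⁻¹) := by
    apply HasSum.of_nat_of_neg_add_one
    · simpa using hasSum_geometric_of_lt_one hr0.le hr2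
    · have := (hasSum_geometric_of_lt_one hr0.le hr2).mul_left r
      have e : (fun n : ℕ => r ^ (-((n : ℤ) + 1)).natAbs) = fun n : ℕ => r * r ^ n := by
        funext n
        have : (-((n : ℤ) + 1)).natAbs = n + 1 := by omega
        rw [this, pow_succ, mul_comm]
      rw [e]; exact this
  have h1 : ∀ b : ℤ, exp (-(2 * ρ + |(b : ℝ)| / ρ)) = exp (-(2 * ρ)) * r ^ b.natAbs := by
    intro b
    rw [hr, ← Real.exp_nat_mul, ← exp_add]
    congr 1
    rw [Nat.cast_natAbs, Int.cast_abs]; ring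
  simp_rw [h1]
  rw [← Finset.mul_sum]
  have h2 : ∑ b ∈ T, r ^ b.natAbs ≤ (1 - r)⁻¹ + r * (1 - r)⁻¹ :=
    sum_le_hasSum T (fun b _ => by positivity) hs
  have h3 : (1 - r)⁻¹ + r * (1 - r)⁻¹ ≤ 1 + 2 * ρ := by
    have h4 : 0 < 1 - r := by linarith
    rw [show (1 - r)⁻¹ + r * (1 - r)⁻¹ = (1 + r) / (1 - r) by field_simp, div_le_iff₀ h4]
    have h5 : r * (ρ + 1) ≤ ρ := by
      have := mul_le_mul_of_nonneg_left hr1 hρ.le
      have e : ρ * (r * (1 + 1 / ρ)) = r * (ρ + 1) := by field_simp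
      linarith
    nlinarith
  have h6 : exp (-(2 * ρ)) * (1 + 2 * ρ) ≤ 1 := by
    have h7 := Real.add_one_le_exp (2 * ρ)
    have h8 : exp (-(2 * ρ)) * exp (2 * ρ) = 1 := by rw [← exp_add]; simp
    nlinarith [exp_pos (-(2 * ρ))]
  calc _ ≤ exp (-(2 * ρ)) * (1 + 2 * ρ) := by
        apply mul_le_mul_of_nonneg_left (h2.trans h3) (exp_pos _).le
    _ ≤ 1 := h6

lemma abs_round_le (u : ℝ) : |((round u : ℤ) : ℝ)| ≤ (2 * u) ^ 8 := by
  by_cases h : round u = 0
  · rw [h]; simp; positivity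
  · have h1 : (1 : ℝ) ≤ |((round u : ℤ) : ℝ)| := by
      rw [← Int.cast_abs]; exact_mod_cast Int.one_le_abs h
    have h2 := abs_sub_round u
    have h3 : |((round u : ℤ) : ℝ)| ≤ |u| + 1 / 2 := by
      have := abs_sub_abs_le_abs_sub ((round u : ℤ) : ℝ) u
      rw [abs_sub_comm] at this; linarith
    have h4 : |((round u : ℤ) : ℝ)| ≤ |2 * u| := by rw [abs_mul]; norm_num; linarith
    have h5 : (2 * u) ^ 8 = |2 * u| ^ 8 := by
      rw [show (8 : ℕ) = 2 * 4 from rfl, pow_mul, pow_mul, sq_abs]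
    rw [h5]
    exact h4.trans (le_self_pow₀ (h1.trans h4) (by norm_num))

lemma ball_count {ι : Type*} [Fintype ι] [DecidableEq ι] (σ₀ : ι → Bool) (C : Finset (ι → Bool))
    (hC : ∀ σ ∈ C, ((#{k | σ k ≠ σ₀ k} : ℕ) : ℝ) < Fintype.card ι / 10) :
    (#C : ℝ) ≤ (exp (1 / 5) * (4 / 3)) ^ Fintype.card ι := by
  have h1 : ∀ σ : ι → Bool, ∏ k, (if σ k ≠ σ₀ k then exp (-2) else 1) =
      exp (-2 * (#{k | σ k ≠ σ₀ k} : ℕ)) := by
    intro σ
    rw [Finset.prod_ite, Finset.prod_const_one, mul_one, Finset.prod_const, ← Real.exp_nat_mul,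
      mul_comm]
  have h2 := Finset.prod_univ_sum (fun _ : ι => (Finset.univ : Finset Bool))
    (fun k b => if b ≠ σ₀ k then exp (-2) else (1 : ℝ))
  rw [Fintype.piFinset_univ] at h2
  have h3 : ∀ k, ∑ b : Bool, (if b ≠ σ₀ k then exp (-2) else (1 : ℝ)) = 1 + exp (-2) := by
    intro k; cases σ₀ k <;> simp [add_comm]
  simp_rw [h3, h1] at h2
  rw [Finset.prod_const, Finset.card_univ] at h2
  have h4 : exp (-2) ≤ (1 / 3 : ℝ) := by
    have h7 := Real.add_one_le_exp (2 : ℝ)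
    have h8 : exp (-2) * exp (2 : ℝ) = 1 := by rw [← exp_add]; simp
    nlinarith [exp_pos (-2 : ℝ)]
  calc (#C : ℝ) = ∑ _σ ∈ C, (1 : ℝ) := by simp
    _ ≤ ∑ σ ∈ C, exp (Fintype.card ι / 5) * exp (-2 * (#{k | σ k ≠ σ₀ k} : ℕ)) := by
        apply Finset.sum_le_sum
        intro σ hσ
        rw [← exp_add]
        apply Real.one_le_exp
        have := hC σ hσ
        linarith
    _ ≤ ∑ σ : ι → Bool, exp (Fintype.card ι / 5) * exp (-2 * (#{k | σ k ≠ σ₀ k} : ℕ)) :=
        Finset.sum_le_sum_of_subset_of_nonneg (Finset.subset_univ _) fun _ _ _ => by positivity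
    _ = exp (Fintype.card ι / 5) * (1 + exp (-2)) ^ Fintype.card ι := by
        rw [← Finset.mul_sum, ← h2]
    _ ≤ exp (Fintype.card ι / 5) * (4 / 3) ^ Fintype.card ι := by
        gcongr; linarith
    _ = _ := by
        rw [mul_pow, ← Real.exp_nat_mul]; congr 2; ring

theorem partial_colouring {ι J : Type*} [Fintype ι] [DecidableEq ι] [Fintype J]
    (a : J → ι → ℝ) (ha : ∀ j k, |a j k| ≤ 1) (m D : ℝ) (hm : (Fintype.card J : ℝ) ≤ m)
    (hm0 : 0 < m) (hn : 0 < Fintype.card ι) (hD : 0 < D)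
    (hD4 : (Fintype.card ι : ℝ) * m ≤ D ^ 4) :
    ∃ σ σ' : ι → Bool, (Fintype.card ι : ℝ) / 10 ≤ (#{k | σ k ≠ σ' k} : ℕ) ∧
      ∀ j, |∑ k, a j k * sg (σ k) - ∑ k, a j k * sg (σ' k)| ≤ 30 * D := by
  classical
  set n : ℝ := (Fintype.card ι : ℝ) with hn'
  have hn0 : 0 < n := by rw [hn']; exact_mod_cast hn
  set X : (ι → Bool) → J → ℝ := fun σ j => ∑ k, a j k * sg (σ k) with hX
  set B : (ι → Bool) → J → ℤ := fun σ j => round (X σ j / (30 * D)) with hB
  set ρ : ℝ := n / (40 * m) with hρ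
  have hρ0 : 0 < ρ := by positivity
  set f : (J → ℤ) → ℝ := fun b => ∏ j, exp (-(2 * ρ + |(b j : ℝ)| / ρ)) with hf
  obtain ⟨σ₀, -, hσ₀⟩ := Finset.exists_max_image (Finset.univ : Finset (ι → Bool))
    (fun σ => #{σ' | B σ' = B σ}) Finset.univ_nonempty
  set C : Finset (ι → Bool) := {σ' | B σ' = B σ₀} with hC
  -- upper bound
  have hup : ∑ σ, f (B σ) ≤ #C := by
    set T : Finset ℤ := Finset.image (fun p : (ι → Bool) × J => B p.1 p.2) Finset.univ with hT
    rw [Finset.sum_comp f B]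
    have hf0 : ∀ b, 0 ≤ f b := fun b => Finset.prod_nonneg fun j _ => (exp_pos _).le
    calc ∑ b ∈ Finset.image B Finset.univ, #{σ | B σ = b} • f b
        ≤ ∑ b ∈ Finset.image B Finset.univ, (#C : ℝ) * f b := by
          apply Finset.sum_le_sum
          intro b hb
          obtain ⟨σ, -, rfl⟩ := Finset.mem_image.mp hb
          rw [nsmul_eq_mul]
          apply mul_le_mul_of_nonneg_right _ (hf0 _)
          exact_mod_cast hσ₀ σ (Finset.mem_univ _)
      _ ≤ ∑ b ∈ Fintype.piFinset (fun _ : J => T), (#C : ℝ) * f b := by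
          apply Finset.sum_le_sum_of_subset_of_nonneg
          · intro b hb
            obtain ⟨σ, -, rfl⟩ := Finset.mem_image.mp hb
            rw [Fintype.mem_piFinset]
            intro j
            exact Finset.mem_image.mpr ⟨(σ, j), Finset.mem_univ _, rfl⟩
          · intro b _ _; exact mul_nonneg (Nat.cast_nonneg _) (hf0 _)
      _ = #C * ∏ _j : J, ∑ b ∈ T, exp (-(2 * ρ + |(b : ℝ)| / ρ)) := by
          rw [← Finset.mul_sum, Finset.prod_univ_sum]
      _ ≤ #C * 1 := by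
          apply mul_le_mul_of_nonneg_left _ (Nat.cast_nonneg _)
          apply Finset.prod_le_one
          · intro j _; exact Finset.sum_nonneg fun b _ => (exp_pos _).le
          · intro j _; exact sum_weight_le ρ hρ0 T
      _ = #C := mul_one _
  -- lower bound
  have h2n : (0 : ℝ) < 2 ^ Fintype.card ι := by positivity
  have hcost : ∑ σ : ι → Bool, ∑ j, (2 * ρ + |(B σ j : ℝ)| / ρ) ≤
      2 ^ Fintype.card ι * (n / 10) := by
    rw [Finset.sum_comm]
    have hj : ∀ j, ∑ σ : ι → Bool, (2 * ρ + |(B σ j : ℝ)| / ρ) ≤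
        2 ^ Fintype.card ι * (n / (10 * m)) := by
      intro j
      rw [Finset.sum_add_distrib, Finset.sum_const, Finset.card_univ, Fintype.card_fun,
        Fintype.card_bool, nsmul_eq_mul, ← Finset.sum_div]
      have e1 : ∑ σ : ι → Bool, |(B σ j : ℝ)| ≤
          (2 / (30 * D)) ^ 8 * (2 ^ Fintype.card ι * (161280 * n ^ 4)) := by
        calc ∑ σ : ι → Bool, |(B σ j : ℝ)|
            ≤ ∑ σ : ι → Bool, (2 / (30 * D)) ^ 8 * (X σ j) ^ 8 := by
              apply Finset.sum_le_sum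
              intro σ _
              refine (abs_round_le _).trans (le_of_eq ?_)
              rw [← mul_pow]; congr 1; ring
          _ ≤ _ := by
              rw [← Finset.mul_sum]
              exact mul_le_mul_of_nonneg_left (eighth_moment (a j) (ha j) hn) (by positivity)
      have e2 : (2 / (30 * D)) ^ 8 * (161280 * n ^ 4) / ρ ≤ n / (20 * m) := by
        have e3 : (n * m) ^ 2 ≤ (D ^ 4) ^ 2 := by gcongr
        rw [hρ, div_pow, div_le_div_iff₀ (by positivity) (by positivity)]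
        have e4 : 2 ^ 8 / (30 * D) ^ 8 * (161280 * n ^ 4) * (20 * m) =
            (2 ^ 8 * 161280 * 20 * n ^ 4 * m) / (30 * D) ^ 8 := by ring
        rw [e4, div_le_iff₀ (by positivity)]
        have e5 : n * (n / (40 * m)) * (30 * D) ^ 8 =
            (30 ^ 8 / 40) * (n ^ 2 / m) * (D ^ 4) ^ 2 := by field_simp
        rw [e5]
        calc 2 ^ 8 * 161280 * 20 * n ^ 4 * m ≤ (30 ^ 8 / 40) * (n ^ 4 * m) := by
              have : 0 ≤ n ^ 4 * m := by positivity
              nlinarith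
          _ = (30 ^ 8 / 40) * (n ^ 2 / m) * (n * m) ^ 2 := by field_simp
          _ ≤ _ := by gcongr
      have e6 : (∑ σ : ι → Bool, |(B σ j : ℝ)|) / ρ ≤ 2 ^ Fintype.card ι * (n / (20 * m)) := by
        calc _ ≤ (2 / (30 * D)) ^ 8 * (2 ^ Fintype.card ι * (161280 * n ^ 4)) / ρ := by gcongr
          _ = 2 ^ Fintype.card ι * ((2 / (30 * D)) ^ 8 * (161280 * n ^ 4) / ρ) := by ring
          _ ≤ _ := by gcongr
      have e7 : 2 * ρ = n / (20 * m) := by rw [hρ]; field_simp; norm_num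
      have e8 : n / (10 * m) = n / (20 * m) + n / (20 * m) := by field_simp; norm_num
      push_cast
      rw [e7, e8, mul_add]
      linarith
    calc _ ≤ ∑ _j : J, 2 ^ Fintype.card ι * (n / (10 * m)) := Finset.sum_le_sum fun j _ => hj j
      _ = Fintype.card J * (2 ^ Fintype.card ι * (n / (10 * m))) := by
          rw [Finset.sum_const, Finset.card_univ, nsmul_eq_mul]
      _ ≤ m * (2 ^ Fintype.card ι * (n / (10 * m))) := by gcongr
      _ = _ := by field_simp
  have hlow : 2 ^ Fintype.card ι * exp (-(n / 10)) ≤ ∑ σ, f (B σ) := by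
    have e1 : ∀ σ : ι → Bool, exp (-(n / 10)) *
        (1 + n / 10 - ∑ j, (2 * ρ + |(B σ j : ℝ)| / ρ)) ≤ f (B σ) := by
      intro σ
      have : f (B σ) = exp (-(n / 10)) * exp (n / 10 - ∑ j, (2 * ρ + |(B σ j : ℝ)| / ρ)) := by
        simp only [hf]
        rw [← Real.exp_sum, ← exp_add, Finset.sum_neg_distrib]; congr 1; ring
      rw [this]
      apply mul_le_mul_of_nonneg_left _ (exp_pos _).le
      have := Real.add_one_le_exp (n / 10 - ∑ j, (2 * ρ + |(B σ j : ℝ)| / ρ))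
      linarith
    refine le_trans ?_ (Finset.sum_le_sum fun σ _ => e1 σ)
    rw [← Finset.mul_sum, Finset.sum_sub_distrib, Finset.sum_const, Finset.card_univ,
      Fintype.card_fun, Fintype.card_bool, nsmul_eq_mul, mul_comm]
    apply mul_le_mul_of_nonneg_left _ (exp_pos _).le
    push_cast
    nlinarith
  have hfar : ∃ σ ∈ C, n / 10 ≤ (#{k | σ k ≠ σ₀ k} : ℕ) := by
    by_contra hcon
    push Not at hcon
    have e1 := ball_count σ₀ C hcon
    have e2 : (exp (1 / 5) * (4 / 3) : ℝ) < 2 * exp (-(1 / 10)) := by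
      have h7 := Real.add_one_le_exp (-(3 / 10) : ℝ)
      have h8 : exp (-(1 / 10) : ℝ) = exp (1 / 5) * exp (-(3 / 10)) := by
        rw [← exp_add]; norm_num
      rw [h8]
      nlinarith [exp_pos (1 / 5 : ℝ)]
    have e3 : (exp (1 / 5) * (4 / 3) : ℝ) ^ Fintype.card ι <
        (2 * exp (-(1 / 10))) ^ Fintype.card ι :=
      pow_lt_pow_left₀ e2 (by positivity) hn.ne'
    have e4 : (2 * exp (-(1 / 10)) : ℝ) ^ Fintype.card ι =
        2 ^ Fintype.card ι * exp (-(n / 10)) := by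
      rw [mul_pow, ← Real.exp_nat_mul]; congr 2; ring
    linarith
  obtain ⟨σ, hσC, hσ⟩ := hfar
  refine ⟨σ, σ₀, hσ, fun j => ?_⟩
  have hBj : B σ j = B σ₀ j := by
    have : B σ = B σ₀ := by simpa [hC] using hσC
    rw [this]
  have h1 := abs_sub_round (X σ j / (30 * D))
  have h2 := abs_sub_round (X σ₀ j / (30 * D))
  have h3 : round (X σ j / (30 * D)) = round (X σ₀ j / (30 * D)) := hBj
  rw [h3] at h1
  have h4 : |X σ j / (30 * D) - X σ₀ j / (30 * D)| ≤ 1 := by
    rw [abs_le] at h1 h2 ⊢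
    constructor <;> linarith [h1.1, h1.2, h2.1, h2.2]
  rw [← sub_div, abs_div, abs_of_pos (by positivity : 0 < 30 * D), div_le_one (by positivity)]
    at h4
  exact h4

universe u

theorem full_colouring_aux {J : Type*} [Fintype J] (m : ℝ) (hm : (Fintype.card J : ℝ) ≤ m)
    (hm0 : 0 < m) (n : ℕ) :
    ∀ (ι : Type u) [Fintype ι], Fintype.card ι = n → ∀ (a : J → ι → ℝ), (∀ j k, |a j k| ≤ 1) →
      ∀ D : ℝ, 0 < D → (n : ℝ) * m ≤ D ^ 4 →
        ∃ σ : ι → Bool, ∀ j, |∑ k, a j k * sg (σ k)| ≤ 750 * D := by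
  induction n using Nat.strong_induction_on with
  | _ n ih =>
    intro ι _ hcard a ha D hD hD4
    classical
    rcases Nat.eq_zero_or_pos n with h0 | h0
    · have : IsEmpty ι := Fintype.card_eq_zero_iff.mp (hcard.trans h0)
      exact ⟨fun _ => true, fun j => by simp; positivity⟩
    obtain ⟨σ, σ', hfar, herr⟩ := partial_colouring a ha m D hm hm0 (hcard ▸ h0) hD
      (by rw [hcard]; exact hD4)
    rw [hcard] at hfar
    have hsum : #{k | σ k = σ' k} + #{k | σ k ≠ σ' k} = n := by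
      rw [← hcard, ← Finset.card_univ]
      exact Finset.card_filter_add_card_filter_not _
    have hn0 : (0 : ℝ) < n := by exact_mod_cast h0
    have hc' : Fintype.card {k // σ k = σ' k} = #{k | σ k = σ' k} := Fintype.card_subtype _
    have hsum' : ((#{k | σ k = σ' k} : ℕ) : ℝ) + (#{k | σ k ≠ σ' k} : ℕ) = n := by
      exact_mod_cast hsum
    have hlt : #{k | σ k = σ' k} < n := by
      have : ((#{k | σ k = σ' k} : ℕ) : ℝ) < n := by linarith
      exact_mod_cast this
    obtain ⟨τ, hτ⟩ := ih _ hlt {k // σ k = σ' k} hc' (fun j k => a j k.1) (fun j k => ha j k.1)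
      (0.98 * D) (by positivity) (by
        have e1 : ((#{k | σ k = σ' k} : ℕ) : ℝ) ≤ 0.9 * n := by linarith
        have e2 : ((#{k | σ k = σ' k} : ℕ) : ℝ) * m ≤ 0.9 * n * m := by gcongr
        have e3 : 0 < D ^ 4 := by positivity
        rw [mul_pow]; nlinarith)
    refine ⟨fun k => if h : σ k = σ' k then τ ⟨k, h⟩ else σ k, fun j => ?_⟩
    have e1 : ∑ k, a j k * sg (if h : σ k = σ' k then τ ⟨k, h⟩ else σ k) =
        ∑ k : {k // σ k = σ' k}, a j k.1 * sg (τ k) +
          (∑ k, a j k * sg (σ k) - ∑ k, a j k * sg (σ' k)) / 2 := by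
      rw [← Finset.sum_sub_distrib, Finset.sum_div,
        ← Fintype.sum_subtype_add_sum_subtype (fun k => σ k = σ' k),
        ← Fintype.sum_subtype_add_sum_subtype (fun k => σ k = σ' k)
          (fun k => (a j k * sg (σ k) - a j k * sg (σ' k)) / 2)]
      have e2 : ∑ k : {k // σ k = σ' k},
          (a j k.1 * sg (σ k.1) - a j k.1 * sg (σ' k.1)) / 2 = 0 := by
        apply Finset.sum_eq_zero
        intro k _; rw [k.2]; ring
      rw [e2, zero_add]
      congr 1
      · apply Finset.sum_congr rfl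
        intro k _; rw [dif_pos k.2]
      · apply Finset.sum_congr rfl
        intro k _
        rw [dif_neg k.2]
        have := k.2
        revert this
        cases σ k.1 <;> cases σ' k.1 <;> simp [sg]
        ring
    rw [e1]
    have h1 := hτ j
    have h2 := herr j
    calc _ ≤ |∑ k : {k // σ k = σ' k}, a j k.1 * sg (τ k)| +
          |(∑ k, a j k * sg (σ k) - ∑ k, a j k * sg (σ' k)) / 2| := abs_add_le _ _
      _ ≤ 750 * (0.98 * D) + 30 * D / 2 := by
          rw [abs_div, abs_two]; gcongr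
      _ = 750 * D := by ring

theorem full_colouring {ι J : Type*} [Fintype ι] [Fintype J] (a : J → ι → ℝ)
    (ha : ∀ j k, |a j k| ≤ 1) (m D : ℝ) (hm : (Fintype.card J : ℝ) ≤ m) (hm0 : 0 < m)
    (hD : 0 < D) (hD4 : (Fintype.card ι : ℝ) * m ≤ D ^ 4) :
    ∃ σ : ι → Bool, ∀ j, |∑ k, a j k * sg (σ k)| ≤ 750 * D :=
  full_colouring_aux m hm hm0 _ ι rfl a ha D hD hD4

lemma signed_colouring {ι J : Type*} [Fintype ι] [Fintype J] (a : J → ι → ℝ)
    (ha : ∀ j k, |a j k| ≤ 1) (m D : ℝ) (hm : (Fintype.card J : ℝ) ≤ m) (hm0 : 0 < m)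
    (hD : 0 < D) (p : ι → Prop) [DecidablePred p] (hD4 : (#{k | p k} : ℝ) * m ≤ D ^ 4) :
    ∃ ε : ι → ℤ, (∀ k, p k → ε k = 1 ∨ ε k = -1) ∧ (∀ k, ¬ p k → ε k = 0) ∧ ∑ k, ε k ≤ 0 ∧
      ∀ j, |∑ k, a j k * ε k| ≤ 750 * D := by
  obtain ⟨σ, hσ⟩ := full_colouring (ι := {k // p k}) (fun j k => a j k.1) (fun j k => ha j k.1)
    m D hm hm0 hD (by rw [Fintype.card_subtype]; exact hD4)
  set ε : ι → ℤ := fun k => if h : p k then (if σ ⟨k, h⟩ then 1 else -1) else 0 with hε
  have h1 : ∀ k, p k → ε k = 1 ∨ ε k = -1 := by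
    intro k hk
    simp only [hε, dif_pos hk]
    split_ifs <;> simp
  have h2 : ∀ k, ¬ p k → ε k = 0 := by
    intro k hk
    simp only [hε, dif_neg hk]
  have h3 : ∀ j, |∑ k, a j k * ε k| ≤ 750 * D := by
    intro j
    have : ∑ k, a j k * ε k = ∑ k : {k // p k}, a j k.1 * sg (σ k) := by
      rw [← Fintype.sum_subtype_add_sum_subtype p]
      have e2 : ∑ k : {k // ¬ p k}, a j k.1 * ε k.1 = 0 := by
        apply Finset.sum_eq_zero
        intro k _; rw [h2 _ k.2]; simp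
      rw [e2, add_zero]
      apply Finset.sum_congr rfl
      intro k _
      simp only [hε, dif_pos k.2, sg]
      split_ifs <;> simp
    rw [this]; exact hσ j
  by_cases hs : ∑ k, ε k ≤ 0
  · exact ⟨ε, h1, h2, hs, h3⟩
  · refine ⟨fun k => - ε k, fun k hk => ?_, fun k hk => ?_, ?_, fun j => ?_⟩
    · rcases h1 k hk with h | h <;> simp [h]
    · simp [h2 k hk]
    · rw [Finset.sum_neg_distrib]; omega
    · have := h3 j
      simp only [Int.cast_neg, mul_neg, Finset.sum_neg_distrib, abs_neg]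
      exact this

lemma round_dyadic {ι J : Type*} [Fintype ι] [Fintype J] (a : J → ι → ℝ)
    (ha : ∀ j k, |a j k| ≤ 1) (m D S : ℝ) (hm : (Fintype.card J : ℝ) ≤ m) (hm0 : 0 < m)
    (hD : 0 < D) (hD4 : S * m ≤ D ^ 4) (l : ℕ) :
    ∀ u : ι → ℤ, (∀ k, 0 ≤ u k ∧ u k ≤ 2 ^ l) → (∑ k, (u k : ℝ)) ≤ 2 ^ l * S →
      ∃ z : ι → ℤ, (∀ k, z k = 0 ∨ z k = 1) ∧
        ∀ j, |∑ k, a j k * (z k - u k / 2 ^ l)| ≤ 1125 * D * (1 - (3 / 5) ^ l) := by
  induction l with
  | zero =>
    intro u hu _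
    refine ⟨u, fun k => ?_, fun j => by simp⟩
    have := hu k
    omega
  | succ l ih =>
    intro u hu hS
    classical
    have hcard : (#{k | u k % 2 = 1} : ℝ) ≤ 2 ^ (l + 1) * S := by
      refine le_trans ?_ hS
      rw [Finset.card_filter]
      push_cast
      apply Finset.sum_le_sum
      intro k _
      have := (hu k).1
      split_ifs with h
      · have : (1 : ℤ) ≤ u k := by omega
        exact_mod_cast this
      · exact_mod_cast this
    obtain ⟨ε, h1, h2, h3, h4⟩ := signed_colouring a ha m ((6 / 5) ^ (l + 1) * D) hm hm0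
      (by positivity) (fun k => u k % 2 = 1) (by
        have e1 : (2 : ℝ) ^ (l + 1) ≤ ((6 / 5) ^ (l + 1)) ^ 4 := by
          rw [← pow_mul, mul_comm, pow_mul]
          gcongr; norm_num
        calc (#{k | u k % 2 = 1} : ℝ) * m ≤ 2 ^ (l + 1) * S * m := by gcongr
          _ = 2 ^ (l + 1) * (S * m) := by ring
          _ ≤ 2 ^ (l + 1) * D ^ 4 := by gcongr
          _ ≤ ((6 / 5) ^ (l + 1)) ^ 4 * D ^ 4 := by gcongr
          _ = _ := by ring)
    have hev : ∀ k, 2 * ((u k + ε k) / 2) = u k + ε k := by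
      intro k
      by_cases hk : u k % 2 = 1
      · rcases h1 k hk with h | h <;> omega
      · have := h2 k hk; omega
    have hev' : ∀ k, (((u k + ε k) / 2 : ℤ) : ℝ) = ((u k : ℝ) + ε k) / 2 := by
      intro k
      have : (2 : ℝ) * (((u k + ε k) / 2 : ℤ) : ℝ) = (u k : ℝ) + ε k := by
        exact_mod_cast hev k
      linarith
    obtain ⟨z, hz, herr⟩ := ih (fun k => (u k + ε k) / 2) (by
        intro k
        have e1 := hu k
        have e2 : (2 : ℤ) ^ (l + 1) = 2 * 2 ^ l := by ring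
        by_cases hk : u k % 2 = 1
        · rcases h1 k hk with h | h <;> constructor <;> omega
        · have := h2 k hk; constructor <;> omega) (by
        simp only [hev']
        rw [← Finset.sum_div, Finset.sum_add_distrib]
        have e1 : (∑ k, (ε k : ℝ)) ≤ 0 := by exact_mod_cast h3
        rw [pow_succ] at hS
        linarith)
    refine ⟨z, hz, fun j => ?_⟩
    have e1 := herr j
    have e2 := h4 j
    simp only [hev'] at e1
    have e3 : ∑ k, a j k * (z k - u k / 2 ^ (l + 1)) =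
        ∑ k, a j k * (z k - ((u k : ℝ) + ε k) / 2 / 2 ^ l) + (∑ k, a j k * ε k) / 2 ^ (l + 1) := by
      rw [Finset.sum_div, ← Finset.sum_add_distrib]
      apply Finset.sum_congr rfl
      intro k _
      field_simp; ring
    rw [e3]
    have e4 : |(∑ k, a j k * ε k) / 2 ^ (l + 1)| ≤ 750 * D * (3 / 5) ^ (l + 1) := by
      rw [abs_div, abs_of_pos (by positivity : (0 : ℝ) < 2 ^ (l + 1)), div_le_iff₀ (by positivity)]
      refine e2.trans (le_of_eq ?_)
      rw [mul_assoc (750 * D), ← mul_pow]; norm_num; ring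
    refine (abs_add_le _ _).trans ?_
    rw [pow_succ (3 / 5 : ℝ)] at e4 ⊢
    nlinarith

/-- rounding a vector with entries in `[0,1]` to a zero-one vector. -/
theorem round_unit {ι J : Type*} [Fintype ι] [Fintype J] (a : J → ι → ℝ)
    (ha : ∀ j k, |a j k| ≤ 1) (m D : ℝ) (hm : (Fintype.card J : ℝ) ≤ m) (hm0 : 0 < m)
    (hD : 0 < D) (y : ι → ℝ) (hy : ∀ k, 0 ≤ y k ∧ y k ≤ 1) (hD4 : (∑ k, y k) * m ≤ D ^ 4) :
    ∃ z : ι → ℤ, (∀ k, z k = 0 ∨ z k = 1) ∧ ∀ j, |∑ k, a j k * (z k - y k)| ≤ 1126 * D := by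
  obtain ⟨l, hl⟩ := pow_unbounded_of_one_lt ((Fintype.card ι : ℝ) / D) (by norm_num : (1 : ℝ) < 2)
  have h2l : (0 : ℝ) < 2 ^ l := by positivity
  obtain ⟨z, hz, herr⟩ := round_dyadic a ha m D (∑ k, y k) hm hm0 hD hD4 l
    (fun k => ⌊2 ^ l * y k⌋) (by
      intro k
      constructor
      · exact Int.floor_nonneg.mpr (mul_nonneg h2l.le (hy k).1)
      · have e1 : (⌊2 ^ l * y k⌋ : ℝ) ≤ 2 ^ l := by
          refine (Int.floor_le _).trans ?_
          nlinarith [(hy k).2]
        exact_mod_cast e1) (by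
      rw [Finset.mul_sum]
      exact Finset.sum_le_sum fun k _ => Int.floor_le _)
  refine ⟨z, hz, fun j => ?_⟩
  have e1 := herr j
  have e3 : ∑ k, a j k * (z k - y k) = ∑ k, a j k * (z k - (⌊2 ^ l * y k⌋ : ℝ) / 2 ^ l) +
      ∑ k, a j k * ((⌊2 ^ l * y k⌋ : ℝ) / 2 ^ l - y k) := by
    rw [← Finset.sum_add_distrib]
    apply Finset.sum_congr rfl
    intro k _; ring
  have e4 : |∑ k, a j k * ((⌊2 ^ l * y k⌋ : ℝ) / 2 ^ l - y k)| ≤ D := by
    refine (Finset.abs_sum_le_sum_abs _ _).trans ?_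
    have : ∀ k, |a j k * ((⌊2 ^ l * y k⌋ : ℝ) / 2 ^ l - y k)| ≤ 1 / 2 ^ l := by
      intro k
      rw [abs_mul]
      have f1 := Int.floor_le (2 ^ l * y k)
      have f2 := Int.lt_floor_add_one (2 ^ l * y k)
      have f3 : |(⌊2 ^ l * y k⌋ : ℝ) / 2 ^ l - y k| ≤ 1 / 2 ^ l := by
        have : (⌊2 ^ l * y k⌋ : ℝ) / 2 ^ l - y k = ((⌊2 ^ l * y k⌋ : ℝ) - 2 ^ l * y k) / 2 ^ l := by
          field_simp
        rw [this, abs_div, abs_of_pos h2l]
        gcongr
        rw [abs_le]; constructor <;> linarith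
      calc _ ≤ 1 * (1 / 2 ^ l) := mul_le_mul (ha j k) f3 (abs_nonneg _) zero_le_one
        _ = _ := one_mul _
    refine (Finset.sum_le_sum fun k _ => this k).trans ?_
    rw [Finset.sum_const, Finset.card_univ, nsmul_eq_mul, mul_one_div, div_le_iff₀ h2l]
    rw [div_lt_iff₀ hD] at hl
    linarith
  rw [e3]
  refine (abs_add_le _ _).trans ?_
  have : (0 : ℝ) ≤ D * (3 / 5) ^ l := by positivity
  nlinarith

end Crest.Agent.Disc
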